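import Vale.Agent.N194Q.Main

/-! The final statements in terms of the classes of Mathlib. -/

namespace Vale.Agent.N194Q

open Vale.Agent.N194P

universe u v

theorem df_iff (A : Type u) [Ring A] :
    IsDedekindFiniteMonoid A ↔ ∀ a b : A, a * b = 1 → b * a = 1 :=
  ⟨fun h _ _ => h.1, fun h => ⟨fun {a b} => h a b⟩⟩

theorem sf_iff (A : Type u) [Ring A] : IsStablyFiniteRing A ↔
    ∀ (n : ℕ) (X Y : Matrix (Fin n) (Fin n) A), X * Y = 1 → Y * X = 1 := by
  simp only [isStablyFiniteRing_iff, df_iff]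

theorem not_df {R : Type u} [Ring R] {G : Type v} [Group G] (h : NDF R G) :
    ¬ IsDedekindFiniteMonoid (MonoidAlgebra R G) := by
  obtain ⟨a, b, h1, h2⟩ := h
  exact fun h => h2 (h.1 h1)

theorem r1 : ¬ ∀ (K : Type) [Field K] (G : Type) [Group G],
    IsStablyFiniteRing (MonoidAlgebra K G) :=
  fun h => q1' fun K _ G _ n _ => (sf_iff _).1 (h K G) n

theorem r2 (K : Type u) [Field K] : List.TFAE
    [∀ (G : Type v) [Group G], IsDedekindFiniteMonoid (MonoidAlgebra K G),
      ∀ (G : Type v) [Group G], IsStablyFiniteRing (MonoidAlgebra K G),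
      IsDedekindFiniteMonoid (MonoidAlgebra K (Equiv.Perm ℕ)), CharZero K] := by
  simp only [sf_iff, df_iff]
  exact field_tfae K

theorem r3 (R : Type u) [CommRing R] : List.TFAE
    [∀ (G : Type v) [Group G], IsDedekindFiniteMonoid (MonoidAlgebra R G),
      ∀ (G : Type v) [Group G], IsStablyFiniteRing (MonoidAlgebra R G),
      IsDedekindFiniteMonoid (MonoidAlgebra R (Equiv.Perm ℕ)),
      ∀ (e : R) (n : ℕ), e * e = e → 0 < n → n • e = 0 → e = 0] := by
  simp only [sf_iff, df_iff]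
  exact comm_tfae R

theorem r4 (n : ℕ) (hn : 2 ≤ n) :
    ∃ (H : Type) (_ : Group H), Group.IsFinitelyPresented H ∧ Infinite H ∧
      ∀ (Q : Type v) [Group Q] (f : H →* Q), (∃ h, f h ≠ 1) →
        ∀ (R : Type u) [Ring R] [CharP R n], ¬ IsDedekindFiniteMonoid (MonoidAlgebra R Q) := by
  obtain ⟨H, _, h1, h2, h⟩ := fp_all.{u, v} n hn
  exact ⟨H, inferInstance, h1, h2, fun Q _ f hf R _ _ => not_df (h Q f hf R)⟩

theorem r5 : ∃ (S : Type) (_ : Group S), IsSimpleGroup S ∧ Group.FG S ∧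
    ∀ (H : Type v) [Group H] (i : S →* H), Function.Injective i →
      ∀ (R : Type u) [Ring R] [Nontrivial R], ringChar R ≠ 0 →
        ¬ IsDedekindFiniteMonoid (MonoidAlgebra R H) := by
  obtain ⟨S, _, h1, h2, h⟩ := simple_all.{u, v}
  exact ⟨S, inferInstance, h1, h2, fun H _ i hi R _ _ hR => not_df (h H i hi R hR)⟩

end Vale.Agent.N194Q
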