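import Vale.Agent.N194P.Alg

/-! Lifting of one-sided inverses along a surjection of coefficient rings; change of the group. -/

namespace Vale.Agent.N194Q

open Finset Vale.Agent.N194P

universe u v w

variable {G : Type v} [Group G]

omit [Group G] in
theorem exists_coeff {R : Type u} [Ring R] {R' : Type w} [Ring R'] (x : MonoidAlgebra R' G)
    (P : R → R' → Prop) (h0 : P 0 0) (h : ∀ g, ∃ r, P r (x.coeff g)) :
    ∃ y : MonoidAlgebra R G, ∀ g, P (y.coeff g) (x.coeff g) := by
  classical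
  choose r hr using h
  refine ⟨MonoidAlgebra.ofCoeff (Finsupp.onFinset x.coeff.support
    (fun g => if x.coeff g = 0 then 0 else r g) fun g hg => ?_), fun g => ?_⟩
  · rw [Finsupp.mem_support_iff]
    intro h1
    exact hg (if_pos h1)
  · change P (if x.coeff g = 0 then 0 else r g) _
    split_ifs with h1
    · rw [h1]
      exact h0
    · exact hr g

theorem NDF_lift {R : Type u} [CommRing R] {R' : Type w} [CommRing R'] (φ : R →+* R')
    (hφ : Function.Surjective φ) (e t : R) (he : e * e = e) (he1 : φ e = 1)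
    (het : IsNilpotent (e * t)) (hk : ∀ r, φ r = 0 → ∃ s, r = t * s) (h : NDF R' G) :
    NDF R G := by
  obtain ⟨a, b, hab, hba⟩ := h
  let Φ := MonoidAlgebra.mapRingHom G φ
  have hΦ : ∀ x g, (Φ x).coeff g = φ (x.coeff g) := fun x g =>
    MonoidAlgebra.coeff_mapRingHom _ _ _
  have hsur : ∀ x, ∃ y, Φ y = x := by
    intro x
    obtain ⟨y, hy⟩ := exists_coeff x (fun r r' => φ r = r') (map_zero φ) fun g => hφ _
    refine ⟨y, MonoidAlgebra.coeff_injective (Finsupp.ext fun g => ?_)⟩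
    rw [hΦ, hy]
  have hsm : ∀ (r : R) x, Φ (r • x) = φ r • Φ x := by
    intro r x
    refine MonoidAlgebra.coeff_injective (Finsupp.ext fun g => ?_)
    simp [hΦ]
  obtain ⟨a, rfl⟩ := hsur a
  obtain ⟨b, rfl⟩ := hsur b
  obtain ⟨c, hc⟩ := exists_coeff (1 - a * b) (fun s r => r = t * s) (mul_zero t).symm fun g => by
    apply hk
    rw [← hΦ, map_sub, map_mul, hab, map_one, sub_self]
    rfl
  have hc' : 1 - a * b = t • c := by
    refine MonoidAlgebra.coeff_injective (Finsupp.ext fun g => ?_)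
    rw [hc]
    simp
  have hn : IsNilpotent ((e * t) • c) := by
    obtain ⟨N, hN⟩ := het
    exact ⟨N, by rw [smul_pow, hN, zero_smul]⟩
  obtain ⟨U, hU⟩ := hn.isUnit_one_sub
  have h1 : e * (1 - e) = 0 := by rw [mul_sub, mul_one, he, sub_self]
  have h2 : (1 - e) * (1 - e) = 1 - e := by rw [sub_mul, one_mul, h1, sub_zero]
  let f : MonoidAlgebra R G → MonoidAlgebra R G := fun x => e • x + (1 - e) • 1
  have hf : ∀ x, Φ (f x) = Φ x := by
    intro x
    simp only [f, map_add, hsm, map_sub, map_one, he1, sub_self, zero_smul, one_smul, add_zero]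
  have h3 : f a * f b = U := by
    rw [hU, mul_smul, ← hc']
    simp only [f, add_mul, mul_add, smul_mul_smul_comm, he, h1, h2, mul_comm (1 - e) e, zero_smul,
      mul_one, add_zero, zero_add]
    rw [smul_sub, sub_smul, one_smul]
    abel
  have h4 : Φ U = 1 := by rw [← h3, map_mul, hf, hf, hab]
  have h5 : Φ (U⁻¹ : (MonoidAlgebra R G)ˣ) = 1 := by
    have h6 := congrArg Φ U.mul_inv
    rwa [map_mul, h4, one_mul, map_one] at h6
  refine ⟨f a, f b * (U⁻¹ : (MonoidAlgebra R G)ˣ), by rw [← mul_assoc, h3, U.mul_inv], fun h => ?_⟩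
  have h6 := congrArg Φ h
  rw [map_mul, map_mul, hf, hf, h5, mul_one, map_one] at h6
  exact hba h6

theorem NDF_zmod {p n : ℕ} (hp : p.Prime) (hn : n ≠ 0) (hpn : p ∣ n) (h : NDF (ZMod p) G) :
    NDF (ZMod n) G := by
  obtain ⟨k, m, hm, rfl⟩ := Nat.exists_eq_pow_mul_and_not_dvd hn p hp.ne_one
  have hk : k ≠ 0 := by
    rintro rfl
    exact hm (by simpa using hpn)
  have hco : IsCoprime ((p : ℤ) ^ k) (m : ℤ) :=
    (Nat.isCoprime_iff_coprime.2 ((Nat.Prime.coprime_iff_not_dvd hp).2 hm)).pow_left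
  obtain ⟨x, y, hxy⟩ := hco
  have h0 : (p : ZMod (p ^ k * m)) ^ k * m = 0 := by
    exact_mod_cast ZMod.natCast_self (p ^ k * m)
  have h1 : (x : ZMod (p ^ k * m)) * (p : ZMod (p ^ k * m)) ^ k + y * m = 1 := by
    exact_mod_cast congrArg (Int.cast (R := ZMod (p ^ k * m))) hxy
  refine NDF_lift (ZMod.castHom hpn (ZMod p)) (ZMod.castHom_surjective hpn) (y * m) p ?_ ?_
    ⟨k, ?_⟩ (fun r hr => ?_) h
  · linear_combination (y * m) * h1 - x * y * h0
  · have h2 := congrArg (ZMod.castHom hpn (ZMod p)) h1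
    rw [map_add, map_mul, map_pow, map_natCast, ZMod.natCast_self, zero_pow hk, mul_zero, zero_add,
      map_one] at h2
    exact h2
  · obtain ⟨k, rfl⟩ := Nat.exists_eq_succ_of_ne_zero hk
    rw [mul_pow, mul_pow, pow_succ (m : ZMod (p ^ (k + 1) * m))]
    linear_combination (y ^ k.succ * m ^ k) * h0
  · obtain ⟨r, rfl⟩ := ZMod.intCast_surjective r
    rw [map_intCast, ZMod.intCast_zmod_eq_zero_iff_dvd] at hr
    obtain ⟨s, rfl⟩ := hr
    exact ⟨s, by push_cast; rfl⟩

theorem NDF_char {p : ℕ} (hp : p.Prime) (h : NDF (ZMod p) G) (R : Type u) [Ring R] (n : ℕ)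
    [CharP R n] (hn : n ≠ 0) (hpn : p ∣ n) : NDF R G :=
  (NDF_zmod hp hn hpn h).change (ZMod.castHom (dvd_refl n) R) (ZMod.castHom_injective R)
    (MonoidHom.id G) Function.injective_id

theorem NDF_ringChar (h : ∀ p : ℕ, p.Prime → NDF (ZMod p) G) (R : Type u) [Ring R] [Nontrivial R]
    (hR : ringChar R ≠ 0) : NDF R G := by
  obtain ⟨p, hp, hpn⟩ := Nat.exists_prime_and_dvd (CharP.ringChar_ne_one (R := R))
  exact NDF_char hp (h p hp) R _ hR hpn

theorem NDF_idem (h : ∀ p : ℕ, p.Prime → NDF (ZMod p) G) {R : Type u} [CommRing R] {e : R}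
    {n : ℕ} (he : e * e = e) (hn : 0 < n) (hne : n • e = 0) (h0 : e ≠ 0) : NDF R G := by
  let I : Ideal R := Ideal.span {1 - e}
  have h1 : e * (1 - e) = 0 := by rw [mul_sub, mul_one, he, sub_self]
  have he1 : Ideal.Quotient.mk I e = 1 := by
    rw [← map_one (Ideal.Quotient.mk I), eq_comm, Ideal.Quotient.eq]
    exact Ideal.mem_span_singleton_self _
  have : Nontrivial (R ⧸ I) := by
    refine Ideal.Quotient.nontrivial_iff.2 fun h2 => h0 ?_
    have h3 : (1 : R) ∈ I := by rw [h2]; trivial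
    obtain ⟨s, hs⟩ := Ideal.mem_span_singleton'.1 h3
    rw [← mul_one e, ← hs, mul_left_comm, h1, mul_zero]
  refine NDF_lift (Ideal.Quotient.mk I) Ideal.Quotient.mk_surjective e (1 - e) he he1
    (by rw [h1]; exact IsNilpotent.zero) (fun r hr => ?_) (NDF_ringChar h _ fun h2 => ?_)
  · obtain ⟨s, hs⟩ := Ideal.mem_span_singleton'.1 (Ideal.Quotient.eq_zero_iff_mem.1 hr)
    exact ⟨s, by rw [← hs, mul_comm]⟩
  · have h3 := congrArg (Ideal.Quotient.mk I) hne
    rw [map_nsmul, he1, map_zero, nsmul_eq_mul, mul_one, ringChar.spec, h2, zero_dvd_iff] at h3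
    omega

/-- only finitely many elements have to survive -/
theorem NDF_finset {R : Type u} [Ring R] (h : NDF R G) :
    ∃ F : Finset G, (∀ x ∈ F, x ≠ 1) ∧
      ∀ (Q : Type w) [Group Q] (f : G →* Q), (∀ x ∈ F, f x ≠ 1) → NDF R Q := by
  classical
  obtain ⟨a, b, hab, hba⟩ := h
  let T : Finset G := (b * a).coeff.support ∪ (1 : MonoidAlgebra R G).coeff.support
  let F : Finset G := ((T ×ˢ T).image fun y => y.1⁻¹ * y.2).erase 1
  have key : ∀ (Q : Type w) [Group Q] (f : G →* Q), (∀ x ∈ F, f x ≠ 1) → NDF R Q := by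
    intro Q _ f hf
    let Φ := MonoidAlgebra.mapDomainRingHom R f
    refine ⟨Φ a, Φ b, by rw [← map_mul, hab, map_one], fun h => hba ?_⟩
    have h1 : Set.InjOn f T := by
      intro x hx y hy hxy
      by_contra hne
      refine hf (x⁻¹ * y) (mem_erase.2 ⟨fun h2 => hne (inv_mul_eq_one.1 h2),
        mem_image.2 ⟨(x, y), mem_product.2 ⟨hx, hy⟩, rfl⟩⟩) ?_
      rw [map_mul, map_inv, hxy, inv_mul_cancel]
    rw [← map_mul, ← map_one Φ] at h
    exact MonoidAlgebra.coeff_injective (Finsupp.mapDomain_injOn _ h1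
      (coe_subset.2 subset_union_left) (coe_subset.2 subset_union_right)
      (congrArg MonoidAlgebra.coeff h))
  exact ⟨F, fun x hx => (mem_erase.1 hx).1, key⟩

end Vale.Agent.N194Q
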