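import Mathlib.GroupTheory.RegularWreathProduct
import Mathlib.GroupTheory.Commutator.Basic
import Mathlib.GroupTheory.FinitelyPresentedGroup
import Mathlib.Tactic

/-!
Wreath products: countably many elements lie in a group with two generators (Neumann and Neumann);
one element of infinite order in the normal closure of each nontrivial element of a given group.
-/

namespace Vale.Agent.N194Q

open RegularWreathProduct
open scoped commutatorElement

section Base

variable {D Q : Type} [Group D] [Group Q]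

/-- the base group -/
def base : (Q → D) →* RegularWreathProduct D Q where
  toFun f := ⟨f, 1⟩
  map_one' := rfl
  map_mul' f g := by ext <;> simp

theorem base_inj : Function.Injective (base : (Q → D) →* RegularWreathProduct D Q) :=
  fun _ _ h => congrArg RegularWreathProduct.left h

theorem inl_inj : Function.Injective (inl : Q →* RegularWreathProduct D Q) :=
  fun _ _ h => congrArg RegularWreathProduct.right h

theorem conj_base (q : Q) (f : Q → D) :
    inl q * base f * (inl q)⁻¹ = base fun x => f (q⁻¹ * x) := by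
  ext <;> simp [base]

open Classical in
/-- the copy of the bottom group at the point `1` -/
noncomputable def pt : D →* RegularWreathProduct D Q :=
  base.comp (MonoidHom.mulSingle (fun _ : Q => D) 1)

open Classical in
theorem pt_eq (d : D) :
    (pt d : RegularWreathProduct D Q) = base fun x => if x = 1 then d else 1 := by
  change base (Pi.mulSingle 1 d) = _
  congr 1
  funext x
  rw [Pi.mulSingle_apply]

theorem pt_inj : Function.Injective (pt : D →* RegularWreathProduct D Q) := by
  intro a b h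
  rw [pt_eq, pt_eq] at h
  simpa using congrFun (base_inj h) 1

theorem comm_pt {x : Q} (hx : x ≠ 1) (a b : D) :
    Commute (inl x * (pt a : RegularWreathProduct D Q) * (inl x)⁻¹) (pt b) := by
  rw [pt_eq, pt_eq, conj_base]
  refine Commute.map ?_ base
  funext y
  by_cases hy : y = 1
  · subst hy
    simp [hx]
  · simp [hy]

end Base

/-- the infinite cyclic group -/
abbrev Z : Type := Multiplicative ℤ

/-- the shift -/
def sh (D : Type) [Group D] : RegularWreathProduct D Z := inl (Multiplicative.ofAdd 1)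

/-- the step function -/
def stp {D : Type} [Group D] (g : D) : RegularWreathProduct D Z :=
  base fun n => if 0 ≤ n.toAdd then g else 1

theorem comm_stp {D : Type} [Group D] (g : D) : ⁅stp g, sh D⁆ = pt g := by
  have h1 : ⁅stp g, sh D⁆ = stp g * (sh D * stp g * (sh D)⁻¹)⁻¹ := by
    rw [commutatorElement_def]
    group
  rw [h1, sh, stp, conj_base, ← map_inv, ← map_mul, pt_eq]
  congr 1
  funext n
  have h2 : n = 1 ↔ n.toAdd = 0 := toAdd_eq_zero.symm
  simp only [Pi.mul_apply, Pi.inv_apply, toAdd_mul, toAdd_inv, toAdd_ofAdd, h2]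
  split_ifs <;> first | omega | simp

theorem two_aux {W : Type} [Group W] (t : W) (u : ℕ → W) :
    ∃ x y : RegularWreathProduct W Z, ∀ i, pt ⁅u i, t⁆ ∈ Subgroup.closure {x, y} := by
  let F : Z → W := fun n => if n.toAdd = 0 then t else
    if 0 < n.toAdd ∧ n.toAdd % 2 = 1 then u (n.toAdd / 2).toNat else 1
  refine ⟨base F, sh W, fun i => ?_⟩
  have hx : base F ∈ Subgroup.closure {base F, sh W} := Subgroup.subset_closure (by simp)
  have hy : sh W ∈ Subgroup.closure {base F, sh W} := Subgroup.subset_closure (by simp)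
  have h1 : (inl (Multiplicative.ofAdd (-(2 * i + 1 : ℤ))) : RegularWreathProduct W Z) =
      sh W ^ (-(2 * i + 1 : ℤ)) := by
    rw [sh, ← map_zpow, ← ofAdd_zsmul]
    simp
  have h2 := conj_base (Multiplicative.ofAdd (-(2 * i + 1 : ℤ))) F
  have h3 : pt ⁅u i, t⁆ =
      ⁅base fun x => F ((Multiplicative.ofAdd (-(2 * i + 1 : ℤ)))⁻¹ * x), base F⁆ := by
    rw [← map_commutatorElement, pt_eq]
    congr 1
    funext n
    have h4 : n = 1 ↔ n.toAdd = 0 := toAdd_eq_zero.symm
    change _ = ⁅F _, F n⁆
    simp only [F, toAdd_mul, toAdd_inv, toAdd_ofAdd, h4, neg_neg]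
    by_cases h5 : n.toAdd = 0
    · rw [h5, if_pos rfl, if_pos rfl, if_neg (by omega), if_pos (by omega)]
      congr 2
      omega
    · rw [if_neg h5, if_neg h5]
      by_cases h6 : 0 < n.toAdd ∧ n.toAdd % 2 = 1
      · rw [if_neg (by omega), if_neg (by omega)]
        simp
      · rw [if_neg h6]
        simp
  rw [h3, ← h2, h1, commutatorElement_def]
  have h7 := mul_mem (mul_mem (zpow_mem hy (-(2 * i + 1 : ℤ))) hx)
    (inv_mem (zpow_mem hy (-(2 * i + 1 : ℤ))))
  exact mul_mem (mul_mem (mul_mem h7 hx) (inv_mem h7)) (inv_mem hx)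

/-- Neumann and Neumann -/
theorem two_gen {G : Type} [Group G] (g : ℕ → G) :
    ∃ (V : Type) (_ : Group V) (ι : G →* V) (U : Subgroup V), Function.Injective ι ∧
      Group.FG U ∧ ∀ i, ι (g i) ∈ U := by
  obtain ⟨x, y, h⟩ := two_aux (sh G) fun i => stp (g i)
  refine ⟨_, inferInstance, (pt (Q := Z)).comp (pt (Q := Z)), Subgroup.closure {x, y},
    pt_inj.comp pt_inj, ?_, fun i => ?_⟩
  · rw [Group.fg_iff_subgroup_fg, Subgroup.fg_iff]
    exact ⟨_, rfl, Set.toFinite _⟩
  · have h1 := h i
    rw [comm_stp] at h1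
    exact h1

theorem comm_mem {H : Type*} [Group H] {N : Subgroup H} (hN : N.Normal) {x a b : H} (hx : x ∈ N)
    (h : Commute (x * a * x⁻¹) b) : ⁅a, b⁆ ∈ N := by
  have h1 : a * x * a⁻¹ * x⁻¹ ∈ N := mul_mem (hN.conj_mem x hx a) (inv_mem hx)
  have h2 := mul_mem h1 (hN.conj_mem _ (inv_mem h1) b)
  have h3 : (x * a * x⁻¹)⁻¹ * b * (x * a * x⁻¹) = b := by
    rw [mul_assoc, ← h.eq, inv_mul_cancel_left]
  have h4 : a * x * a⁻¹ * x⁻¹ * (b * (a * x * a⁻¹ * x⁻¹)⁻¹ * b⁻¹) =
      a * ((x * a * x⁻¹)⁻¹ * b * (x * a * x⁻¹)) * a⁻¹ * b⁻¹ := by group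
  rw [h4, h3] at h2
  exact h2

/-- a wreath product in which a commutator of infinite order lies in the normal closure of each
nontrivial element of the given group -/
theorem exists_over (G : Type) [Group G] :
    ∃ (W : Type) (_ : Group W) (j : G →* W) (a b : W), Function.Injective j ∧
      ¬ IsOfFinOrder ⁅a, b⁆ ∧ ∀ x, x ≠ 1 → Commute (j x * a * (j x)⁻¹) b := by
  refine ⟨RegularWreathProduct (RegularWreathProduct Z Z) G, inferInstance, inl,
    pt (stp (Multiplicative.ofAdd 1)), pt (sh Z), inl_inj, ?_, fun x hx => comm_pt hx _ _⟩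
  rw [← map_commutatorElement, comm_stp, pt_inj.isOfFinOrder_iff, pt_inj.isOfFinOrder_iff,
    isOfFinOrder_ofAdd_iff, isOfFinAddOrder_iff_eq_zero]
  exact one_ne_zero

/-- the finitely generated form, for a countable group -/
theorem over_fg (G : Type) [Group G] [Countable G] :
    ∃ (W : Type) (_ : Group W) (j : G →* W) (z : W), Function.Injective j ∧ Group.FG W ∧
      ¬ IsOfFinOrder z ∧ ∀ N : Subgroup W, N.Normal → ∀ x, x ≠ 1 → j x ∈ N → z ∈ N := by
  obtain ⟨W, _, j, a, b, hj, hab, hc⟩ := exists_over G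
  obtain ⟨g, hg⟩ := exists_surjective_nat G
  obtain ⟨V, _, ι, U, hι, hU, h⟩ := two_gen (G := W)
    fun i => if i = 0 then a else if i = 1 then b else j (g (i - 2))
  have ha : ι a ∈ U := h 0
  have hb : ι b ∈ U := h 1
  have hG : ∀ x, (ι.comp j) x ∈ U := by
    intro x
    obtain ⟨i, rfl⟩ := hg x
    have h1 := h (i + 2)
    rw [if_neg (by omega), if_neg (by omega), Nat.add_sub_cancel] at h1
    exact h1
  refine ⟨U, inferInstance, (ι.comp j).codRestrict U hG, ⁅(⟨ι a, ha⟩ : U), (⟨ι b, hb⟩ : U)⁆,
    fun x y hxy => hj (hι (congrArg Subtype.val hxy)), hU, ?_, fun N hN x hx h1 => ?_⟩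
  · rw [← U.subtype_injective.isOfFinOrder_iff, map_commutatorElement]
    change ¬ IsOfFinOrder ⁅ι a, ι b⁆
    rw [← map_commutatorElement, hι.isOfFinOrder_iff]
    exact hab
  · refine comm_mem hN h1 (Subtype.ext ?_)
    have h2 := ((hc x hx).map ι).eq
    simp only [map_mul, map_inv] at h2
    exact h2

/-- the finitely presented form, for finitely many elements -/
theorem over_fp (G : Type) [Group G] [Group.IsFinitelyPresented G] (F : Finset G)
    (hF : ∀ x ∈ F, x ≠ 1) :
    ∃ (W : Type) (_ : Group W) (j : G →* W) (z : W), Group.IsFinitelyPresented W ∧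
      ¬ IsOfFinOrder z ∧ ∀ N : Subgroup W, N.Normal → ∀ x ∈ F, j x ∈ N → z ∈ N := by
  obtain ⟨W, _, j, a, b, hj, hab, hc⟩ := exists_over G
  let A : Monoid.Coprod G (FreeGroup Bool) := Monoid.Coprod.inr (FreeGroup.of true)
  let B : Monoid.Coprod G (FreeGroup Bool) := Monoid.Coprod.inr (FreeGroup.of false)
  let r : G → Monoid.Coprod G (FreeGroup Bool) := fun x =>
    ⁅Monoid.Coprod.inl x * A * (Monoid.Coprod.inl x)⁻¹, B⁆
  let T : Subgroup (Monoid.Coprod G (FreeGroup Bool)) := Subgroup.normalClosure (r '' F)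
  let φ : Monoid.Coprod G (FreeGroup Bool) →* W :=
    Monoid.Coprod.lift j (FreeGroup.lift fun c => cond c a b)
  have hA : φ A = a := by simp [φ, A]
  have hB : φ B = b := by simp [φ, B]
  have hT : T ≤ φ.ker := by
    refine Subgroup.normalClosure_le_normal ?_
    rintro _ ⟨x, hx, rfl⟩
    change φ (r x) = 1
    simp only [r, map_commutatorElement, map_mul, map_inv, hA, hB]
    rw [commutatorElement_eq_one_iff_commute]
    exact hc x (hF x hx)
  let q := QuotientGroup.mk' T
  refine ⟨_ ⧸ T, inferInstance, q.comp Monoid.Coprod.inl, ⁅q A, q B⁆,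
    Group.IsFinitelyPresented.quotient T ⟨_, (F.finite_toSet.image r), rfl⟩, fun h => hab ?_,
    fun N hN x hx h1 => comm_mem hN h1 ?_⟩
  · have h1 := (QuotientGroup.lift T φ hT).isOfFinOrder h
    rw [map_commutatorElement] at h1
    change IsOfFinOrder ⁅φ A, φ B⁆ at h1
    rwa [hA, hB] at h1
  · rw [← commutatorElement_eq_one_iff_commute]
    have h2 : q (r x) = 1 :=
      (QuotientGroup.eq_one_iff _).2 (Subgroup.subset_normalClosure ⟨x, hx, rfl⟩)
    simp only [r, map_commutatorElement, map_mul, map_inv] at h2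
    exact h2

end Vale.Agent.N194Q
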