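import Vale.Agent.N184.Pos
import Vale.Agent.N194P.Alg

/-!
Characteristic zero (Kaplansky), and the commutative rings over which all group rings are stably
finite.
-/

namespace Vale.Agent.N194Q

open Finset Vale.Agent.N194P

universe u v

/-- a nontrivial finitely generated rational algebra has a complex point -/
theorem exists_point (A : Type u) [CommRing A] [Nontrivial A] [Algebra ℚ A]
    [Algebra.FiniteType ℚ A] : Nonempty (A →+* ℂ) := by
  obtain ⟨m, hm⟩ := Ideal.exists_maximal A
  let F := A ⧸ m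
  let i1 : Algebra ℚ F := Ideal.Quotient.algebra ℚ
  have i2 : Algebra.FiniteType ℚ F :=
    Algebra.FiniteType.of_surjective (Ideal.Quotient.mkₐ ℚ m) (Ideal.Quotient.mkₐ_surjective ℚ m)
  let i3 : Field F := Ideal.Quotient.field m
  have hfin : Module.Finite ℚ F := finite_of_finite_type_of_isJacobsonRing ℚ F
  let χ : F →ₐ[ℚ] ℂ := IsAlgClosed.lift
  exact ⟨χ.toRingHom.comp (Ideal.Quotient.mk m)⟩

/-- finitely many elements of a field of characteristic zero specialise to complex numbers -/
theorem exists_hom_complex {K : Type u} [Field K] [CharZero K] (s : Finset K) :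
    ∃ (S : Subring K) (ψ : S →+* ℂ), (∀ x ∈ s, x ∈ S) ∧ ∀ x : S, x.1 ∈ s → ψ x = 0 → x = 0 := by
  classical
  let S : Subalgebra ℚ K := Algebra.adjoin ℚ ((s ∪ s.image fun x => x⁻¹ : Finset K) : Set K)
  have hS : Algebra.FiniteType ℚ S :=
    (Subalgebra.fg_iff_finiteType _).1 (Subalgebra.fg_adjoin_finset _)
  obtain ⟨ψ⟩ := exists_point S
  have h1 : ∀ x ∈ s, x ∈ S := fun x hx =>
    Algebra.subset_adjoin (mem_coe.2 (mem_union_left _ hx))
  have h2 : ∀ x ∈ s, x⁻¹ ∈ S := fun x hx =>
    Algebra.subset_adjoin (mem_coe.2 (mem_union_right _ (mem_image_of_mem _ hx)))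
  refine ⟨S.toSubring, ψ, h1, fun x hx h0 => ?_⟩
  by_contra hne
  have h3 : x.1 ≠ 0 := fun h => hne (Subtype.ext h)
  let x' : S := ⟨x.1, x.2⟩
  have h4 : x' * ⟨x.1⁻¹, h2 _ hx⟩ = 1 := Subtype.ext (mul_inv_cancel₀ h3)
  have h5 := congrArg ψ h4
  have h6 : ψ x' = 0 := h0
  rw [map_mul, h6, zero_mul, map_one] at h5
  exact zero_ne_one h5

variable {G : Type v} [Group G] {κ : Type} [Fintype κ] [DecidableEq κ]

/-- all coefficients of a matrix over a group ring -/
noncomputable def coefs {R : Type u} [Ring R] (E : Matrix κ κ (MonoidAlgebra R G)) : Finset R := by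
  classical
  exact insert 0 (univ.biUnion fun i => univ.biUnion fun j => (E i j).coeff.frange)

omit [DecidableEq κ] [Group G] in
theorem mem_coefs {R : Type u} [Ring R] (E : Matrix κ κ (MonoidAlgebra R G)) (i j : κ) (g : G) :
    (E i j).coeff g ∈ coefs E := by
  classical
  unfold coefs
  by_cases h : (E i j).coeff g = 0
  · rw [h]
    exact mem_insert_self _ _
  · refine mem_insert_of_mem (mem_biUnion.2 ⟨i, mem_univ _, mem_biUnion.2 ⟨j, mem_univ _, ?_⟩⟩)
    exact Finsupp.mem_frange.2 ⟨h, g, rfl⟩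

omit [DecidableEq κ] [Group G] in
theorem coefs_elim {R : Type u} [Ring R] (E : Matrix κ κ (MonoidAlgebra R G)) {x : R}
    (hx : x ∈ coefs E) : x = 0 ∨ ∃ i j g, (E i j).coeff g = x := by
  classical
  unfold coefs at hx
  rcases mem_insert.1 hx with h | h
  · exact Or.inl h
  · obtain ⟨i, -, h⟩ := mem_biUnion.1 h
    obtain ⟨j, -, h⟩ := mem_biUnion.1 h
    obtain ⟨-, g, hg⟩ := Finsupp.mem_frange.1 h
    exact Or.inr ⟨i, j, g, hg⟩

omit [DecidableEq κ] in
theorem coeff_sq {R : Type u} [Ring R] (E : Matrix κ κ (MonoidAlgebra R G)) (i j : κ) (g : G) :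
    ((E * E) i j).coeff g =
      ∑ k, ∑ h ∈ (E i k).coeff.support, (E i k).coeff h * (E k j).coeff (h⁻¹ * g) := by
  rw [Matrix.mul_apply, MonoidAlgebra.coeff_sum, Finsupp.finsetSum_apply]
  exact sum_congr rfl fun k _ => MonoidAlgebra.coeff_mul_apply_left _ _ _

/-- Kaplansky: in characteristic zero an idempotent matrix of trace zero vanishes -/
theorem idem_field {K : Type u} [Field K] [CharZero K] (E : Matrix κ κ (MonoidAlgebra K G))
    (hE : E * E = E) (ht : ∑ i, (E i i).coeff 1 = 0) : E = 0 := by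
  classical
  obtain ⟨S, ψ, hS, hψ⟩ := exists_hom_complex (coefs E)
  let c : κ → κ → G → S := fun i j g => ⟨(E i j).coeff g, hS _ (mem_coefs E i j g)⟩
  have hc0 : ∀ i j, ∀ g ∉ (E i j).coeff.support, c i j g = 0 := fun i j g hg =>
    Subtype.ext (Finsupp.notMem_support_iff.1 hg)
  let e : Matrix κ κ (G → ℂ) := fun i j g => ψ (c i j g)
  have he : ∀ i j, Summable fun g => ‖e i j g‖ := by
    intro i j
    refine summable_of_ne_finset_zero (s := (E i j).coeff.support) fun g hg => ?_
    simp only [e, hc0 i j g hg, map_zero, norm_zero]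
  have hee : ∀ i j g, ∑ k, ∑' h, e i k h * e k j (h⁻¹ * g) = e i j g := by
    intro i j g
    have h1 : ∑ k, ∑ h ∈ (E i k).coeff.support, c i k h * c k j (h⁻¹ * g) = c i j g := by
      apply Subtype.ext
      push_cast
      exact (coeff_sq E i j g).symm.trans (by rw [hE])
    have h2 := congrArg ψ h1
    simp only [map_sum, map_mul] at h2
    refine Eq.trans (sum_congr rfl fun k _ => ?_) h2
    refine tsum_eq_sum fun h hh => ?_
    simp only [e, hc0 i k h hh, map_zero, zero_mul]
  obtain ⟨t, -, -, ht1, ht0, -⟩ := Vale.Agent.N184.kaplansky he hee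
  have h3 : ∑ i, c i i 1 = 0 := by
    apply Subtype.ext
    push_cast
    exact ht
  have h4 := congrArg ψ h3
  rw [map_sum, map_zero] at h4
  have h5 : (t : ℂ) = 0 := ht1.symm.trans h4
  have h6 := ht0 (by exact_mod_cast h5)
  ext i j g
  have h7 : ψ (c i j g) = 0 := congrFun (congrFun (congrFun h6 i) j) g
  exact congrArg Subtype.val (hψ _ (mem_coefs E i j g) h7)

/-- over a commutative ring without nonzero idempotent of finite additive order an idempotent
matrix of trace zero vanishes -/
theorem idem_comm {R : Type u} [CommRing R]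
    (hR : ∀ (e : R) (n : ℕ), e * e = e → 0 < n → n • e = 0 → e = 0)
    (E : Matrix κ κ (MonoidAlgebra R G)) (hE : E * E = E) (ht : ∑ i, (E i i).coeff 1 = 0) :
    E = 0 := by
  classical
  let I : Ideal R := Ideal.span (coefs E : Set R)
  have hI : ∀ i j g, (E i j).coeff g ∈ I := fun i j g => Ideal.subset_span (mem_coefs E i j g)
  have hII : IsIdempotentElem I := by
    refine le_antisymm Ideal.mul_le_left (Ideal.span_le.2 fun x hx => ?_)
    rcases coefs_elim E hx with rfl | ⟨i, j, g, rfl⟩
    · exact zero_mem _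
    · have h1 := coeff_sq E i j g
      rw [hE] at h1
      rw [h1]
      exact sum_mem fun k _ => sum_mem fun h _ => Ideal.mul_mem_mul (hI _ _ _) (hI _ _ _)
  obtain ⟨e, he, hIe⟩ := (Ideal.isIdempotentElem_iff_of_fg I ⟨_, rfl⟩).1 hII
  have he0 : e = 0 := by
    by_contra hne
    let S : Submonoid R :=
      { carrier := {x | ∃ n : ℕ, 0 < n ∧ x * e = n • e}
        one_mem' := ⟨1, one_pos, by simp⟩
        mul_mem' := by
          rintro x y ⟨n, hn, hx⟩ ⟨m, hm, hy⟩
          exact ⟨m * n, Nat.mul_pos hm hn, by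
            rw [mul_assoc, hy, mul_smul_comm, hx, mul_smul]⟩ }
    obtain ⟨P, hP, -, hPS⟩ := Ideal.exists_le_prime_disjoint (⊥ : Ideal R) S (by
      rw [Set.disjoint_left]
      rintro x hx ⟨n, hn, h⟩
      have h1 : x = 0 := hx
      rw [h1, zero_mul] at h
      exact hne (hR e n he hn h.symm))
    rw [Set.disjoint_left] at hPS
    let K := FractionRing (R ⧸ P)
    let φ : R →+* K := (algebraMap (R ⧸ P) K).comp (Ideal.Quotient.mk P)
    have hφ : ∀ x, φ x = 0 → x ∈ P := by
      intro x hx
      rw [← Ideal.Quotient.eq_zero_iff_mem]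
      exact IsFractionRing.injective (R ⧸ P) K (by rw [map_zero]; exact hx)
    have : CharZero K := by
      refine charZero_of_inj_zero fun n hn => ?_
      by_contra h0
      refine hPS (hφ n (by rw [map_natCast, hn])) ⟨n, Nat.pos_of_ne_zero h0, ?_⟩
      rw [nsmul_eq_mul]
    let Φ := (MonoidAlgebra.mapRingHom G φ).mapMatrix (m := κ)
    have hΦ : ∀ i j g, (Φ E i j).coeff g = φ ((E i j).coeff g) := fun i j g =>
      MonoidAlgebra.coeff_mapRingHom _ _ _
    have h1 := idem_field (Φ E) (by rw [← map_mul, hE]) (by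
      simp only [hΦ]
      rw [← map_sum, ht, map_zero])
    have h2 : I ≤ P := by
      refine Ideal.span_le.2 fun x hx => ?_
      rcases coefs_elim E hx with rfl | ⟨i, j, g, rfl⟩
      · exact zero_mem _
      · apply hφ
        rw [← hΦ, h1]
        rfl
    refine hPS (h2 ?_) ⟨1, one_pos, by rw [one_smul]; exact he⟩
    rw [hIe]
    exact Submodule.mem_span_singleton_self e
  ext i j g
  have h3 := hI i j g
  rw [hIe, he0, Submodule.span_zero_singleton] at h3
  exact h3

theorem coeff_one_comm {R : Type u} [CommRing R] (x y : MonoidAlgebra R G) :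
    (x * y).coeff 1 = (y * x).coeff 1 := by
  rw [MonoidAlgebra.coeff_mul_apply_left, MonoidAlgebra.coeff_mul_apply_right]
  refine sum_congr rfl fun h _ => ?_
  simp only [mul_one, one_mul, mul_comm]

/-- stable finiteness -/
theorem stable_comm {R : Type u} [CommRing R]
    (hR : ∀ (e : R) (n : ℕ), e * e = e → 0 < n → n • e = 0 → e = 0)
    (A B : Matrix κ κ (MonoidAlgebra R G)) (h : A * B = 1) : B * A = 1 := by
  have h1 : (1 - B * A) * (1 - B * A) = 1 - B * A := by
    rw [mul_sub, mul_one, sub_mul, one_mul, mul_assoc B A, ← mul_assoc A B, h, one_mul, sub_self,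
      sub_zero]
  have h2 : ∑ i, ((B * A) i i).coeff 1 = ∑ i, ((A * B) i i).coeff 1 := by
    simp only [Matrix.mul_apply, MonoidAlgebra.coeff_sum, Finsupp.finsetSum_apply]
    rw [sum_comm]
    exact sum_congr rfl fun i _ => sum_congr rfl fun j _ => coeff_one_comm _ _
  have h3 := idem_comm hR _ h1 (by
    simp only [Matrix.sub_apply, MonoidAlgebra.coeff_sub, Finsupp.sub_apply, sum_sub_distrib]
    rw [h2, h, sub_self])
  exact (sub_eq_zero.1 h3).symm

end Vale.Agent.N194Q
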