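import Mathlib.GroupTheory.Perm.ViaEmbedding
import Vale.Agent.N194.Embed
import Vale.Agent.N194P.Odd
import Vale.Agent.N194Q.Lift
import Vale.Agent.N194Q.Two
import Vale.Agent.N194Q.Zero

/-! Direct finiteness fails in every positive characteristic: the final statements. -/

namespace Vale.Agent.N194Q

open Vale.Agent.N194P

universe u v w

theorem fg_of_fp {G : Type} [Group G] (h : Group.IsFinitelyPresented G) : Group.FG G := by
  obtain ⟨n, φ, hφ, -⟩ := h.out
  exact Group.fg_iff_exists_freeGroup_hom_surjective_finite.2 ⟨_, inferInstance, φ, hφ⟩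

theorem countable_of_fg {G : Type} [Group G] (h : Group.FG G) : Countable G := by
  obtain ⟨α, _, φ, hφ⟩ := Group.fg_iff_exists_freeGroup_hom_surjective_finite.1 h
  have h1 : Function.Surjective (FreeGroup.mk : List (α × Bool) → FreeGroup α) :=
    Quot.mk_surjective
  exact (hφ.comp h1).countable

/-- four copies of a group in a group which is normally generated by the copies of one element -/
theorem four {W : Type} [Group W] (hW : Group.FG W) {z : W} (hz : ¬ IsOfFinOrder z) :
    ∃ (H : Type) (_ : Group H), Group.FG H ∧ Infinite H ∧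
      (Group.IsFinitelyPresented W → Group.IsFinitelyPresented H) ∧
      ∃ j : Bool × Bool → W →* H, ∀ N : Subgroup H, N.Normal → N ≠ ⊤ → ∃ s, j s z ∉ N := by
  have hz' := injective_zpow_iff_not_isOfFinOrder.2 hz
  obtain ⟨H, _, j, h0, hfp, -, h1, h2, -⟩ := Vale.Agent.N194.amalgam_fg (M := fun _ : Bool => W)
    (i₀ := false) (i₁ := true) (by simp) z z hz' (fun h => hz (h ▸ IsOfFinOrder.one)) fun _ => hW
  refine ⟨H, inferInstance, h0,
    Infinite.of_injective (fun n : ℤ => j true true (z ^ n)) ((h1 _ _).comp hz'),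
    fun h => hfp fun _ => h, fun s => j s.1 s.2, fun N hN hne => ?_⟩
  by_contra hcon
  push Not at hcon
  exact hne (h2 N hN fun s => ⟨hcon (s, false), hcon (s, true)⟩)

theorem ker_ne_top {H : Type} [Group H] {Q : Type v} [Group Q] {f : H →* Q} (hf : ∃ h, f h ≠ 1) :
    f.ker ≠ ⊤ := by
  obtain ⟨h, hh⟩ := hf
  intro h1
  exact hh (MonoidHom.mem_ker.1 (by rw [h1]; trivial))

/-- finitely presented groups all of whose nontrivial images are counterexamples -/
theorem fp_all (n : ℕ) (hn : 2 ≤ n) :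
    ∃ (H : Type) (_ : Group H), Group.IsFinitelyPresented H ∧ Infinite H ∧
      ∀ (Q : Type v) [Group Q] (f : H →* Q), (∃ h, f h ≠ 1) →
        ∀ (R : Type u) [Ring R] [CharP R n], NDF R Q := by
  obtain ⟨p, hp, hpn⟩ := Nat.exists_prime_and_dvd (n := n) (by omega)
  have := Fact.mk hp
  obtain ⟨G, _, hG, h⟩ := ndf_prime p
  obtain ⟨F, hF, hk⟩ := NDF_finset.{0, 0, v} h
  obtain ⟨W, _, i, z, hW, hz, hN⟩ := over_fp G F hF
  obtain ⟨H, _, -, h1, h2, j, h3⟩ := four (fg_of_fp hW) hz
  refine ⟨H, inferInstance, h2 hW, h1, fun Q _ f hf R _ _ => ?_⟩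
  obtain ⟨s, hs⟩ := h3 f.ker inferInstance (ker_ne_top hf)
  refine NDF_char hp (hk Q ((f.comp (j s)).comp i) fun x hx h4 => hs ?_) R n (by omega) hpn
  exact hN (f.comp (j s)).ker inferInstance x hx h4

/-- P. Hall: a countable group embeds in a finitely generated simple group -/
theorem hall (G : Type) [Group G] [Countable G] :
    ∃ (S : Type) (_ : Group S) (i : G →* S), IsSimpleGroup S ∧ Group.FG S ∧
      Function.Injective i := by
  obtain ⟨W, _, i, z, -, hW, hz, hN⟩ := over_fg G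
  obtain ⟨H, _, h0, h1, -, j, h3⟩ := four hW hz
  obtain ⟨S, _, f, hf, hS⟩ := Vale.Agent.N194.exists_simple_quotient H h0
  obtain ⟨y, hy⟩ := exists_ne (1 : S)
  obtain ⟨y, rfl⟩ := hf y
  obtain ⟨s, hs⟩ := h3 f.ker inferInstance (ker_ne_top ⟨y, hy⟩)
  refine ⟨S, inferInstance, (f.comp (j s)).comp i, hS, Group.fg_of_surjective hf, ?_⟩
  rw [injective_iff_map_eq_one]
  intro x hx
  by_contra hne
  exact hs (hN (f.comp (j s)).ker inferInstance x hne hx)

/-- one group for all primes -/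
theorem one_fg : ∃ (U : Type) (_ : Group U), Group.FG U ∧ ∀ p : ℕ, p.Prime → NDF (ZMod p) U := by
  classical
  choose G iG hG h using fun p : Nat.Primes => @ndf_prime p ⟨p.2⟩
  have : ∀ p, Countable (G p) := fun p => countable_of_fg (fg_of_fp (hG p))
  have : Nonempty (Σ p, G p) := ⟨⟨⟨2, Nat.prime_two⟩, (iG _).one⟩⟩
  obtain ⟨g, hg⟩ := exists_surjective_nat (Σ p, G p)
  obtain ⟨V, _, ι, U, hι, hU, h1⟩ := two_gen (G := ∀ p, G p)
    fun i => MonoidHom.mulSingle G (g i).1 (g i).2
  suffices h4 : ∀ p : Nat.Primes, NDF (ZMod p) U from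
    ⟨U, inferInstance, hU, fun p hp => h4 ⟨p, hp⟩⟩
  intro p
  have h2 : ∀ x, (ι.comp (MonoidHom.mulSingle G p)) x ∈ U := by
    intro x
    obtain ⟨i, hi⟩ := hg ⟨p, x⟩
    have h3 := h1 i
    rw [hi] at h3
    exact h3
  exact (h p).change (RingHom.id _) Function.injective_id (MonoidHom.codRestrict _ U h2)
    fun x y hxy => Pi.mulSingle_injective _ (hι (congrArg Subtype.val hxy))

theorem one_simple : ∃ (S : Type) (_ : Group S), IsSimpleGroup S ∧ Group.FG S ∧
    ∀ (H : Type v) [Group H] (i : S →* H), Function.Injective i →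
      ∀ p : ℕ, p.Prime → NDF (ZMod p) H := by
  obtain ⟨U, _, hU, h⟩ := one_fg
  have := countable_of_fg hU
  obtain ⟨S, _, j, h1, h2, h3⟩ := hall U
  exact ⟨S, inferInstance, h1, h2, fun H _ i hi p hp =>
    (h p hp).change (RingHom.id _) Function.injective_id (i.comp j) (hi.comp h3)⟩

theorem perm_nat (p : ℕ) (hp : p.Prime) : NDF (ZMod p) (Equiv.Perm ℕ) := by
  obtain ⟨S, _, -, h1, h⟩ := one_simple.{0}
  have := countable_of_fg h1
  obtain ⟨e⟩ := nonempty_embedding_nat S
  exact h _ ((Equiv.Perm.viaEmbeddingHom e).comp (MulAction.toPermHom S S))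
    ((Equiv.Perm.viaEmbeddingHom_injective e).comp MulAction.toPerm_injective) p hp

theorem df_of_stable {A : Type u} [Ring A]
    (h : ∀ X Y : Matrix (Fin 1) (Fin 1) A, X * Y = 1 → Y * X = 1) (a b : A) (hab : a * b = 1) :
    b * a = 1 := by
  have h1 := h (Matrix.scalar _ a) (Matrix.scalar _ b) (by rw [← map_mul, hab, map_one])
  rw [← map_mul, ← map_one (Matrix.scalar (Fin 1))] at h1
  exact Matrix.scalar_inj.1 h1

/-- the classification for a group which fails for all primes -/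
theorem tfae_comm {G : Type v} [Group G] (h : ∀ p : ℕ, p.Prime → NDF (ZMod p) G) (R : Type u)
    [CommRing R] (hdf : ∀ a b : MonoidAlgebra R G, a * b = 1 → b * a = 1) (e : R) (n : ℕ)
    (he : e * e = e) (hn : 0 < n) (hne : n • e = 0) : e = 0 := by
  by_contra h0
  obtain ⟨a, b, h1, h2⟩ := NDF_idem h he hn hne h0
  exact h2 (hdf a b h1)

theorem charZero_iff (K : Type u) [Field K] :
    (∀ (e : K) (n : ℕ), e * e = e → 0 < n → n • e = 0 → e = 0) ↔ CharZero K := by
  constructor
  · intro h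
    refine charZero_of_inj_zero fun n hn => ?_
    by_contra h0
    exact one_ne_zero (h 1 n (one_mul 1) (Nat.pos_of_ne_zero h0) (by rw [nsmul_one, hn]))
  · intro _ e n _ hn h
    rw [nsmul_eq_mul, mul_eq_zero, Nat.cast_eq_zero] at h
    exact h.resolve_left hn.ne'

theorem ulift_perm (p : ℕ) (hp : p.Prime) : NDF (ZMod p) (ULift.{v} (Equiv.Perm ℕ)) :=
  (perm_nat p hp).change (RingHom.id _) Function.injective_id
    (MulEquiv.ulift.symm : Equiv.Perm ℕ ≃* ULift.{v} (Equiv.Perm ℕ)).toMonoidHom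
    (MulEquiv.ulift.symm : Equiv.Perm ℕ ≃* ULift.{v} (Equiv.Perm ℕ)).injective

theorem comm_tfae (R : Type u) [CommRing R] : List.TFAE
    [∀ (G : Type v) [Group G] (a b : MonoidAlgebra R G), a * b = 1 → b * a = 1,
      ∀ (G : Type v) [Group G] (n : ℕ) (A B : Matrix (Fin n) (Fin n) (MonoidAlgebra R G)),
        A * B = 1 → B * A = 1,
      ∀ a b : MonoidAlgebra R (Equiv.Perm ℕ), a * b = 1 → b * a = 1,
      ∀ (e : R) (n : ℕ), e * e = e → 0 < n → n • e = 0 → e = 0] := by
  tfae_have 1 → 4 := fun h => tfae_comm ulift_perm R (h _)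
  tfae_have 4 → 2 := fun h G _ n A B => stable_comm h A B
  tfae_have 2 → 1 := fun h G _ => df_of_stable (h G 1)
  tfae_have 3 → 4 := tfae_comm perm_nat R
  tfae_have 4 → 3 := fun h => df_of_stable (stable_comm h)
  tfae_finish

theorem field_tfae (K : Type u) [Field K] : List.TFAE
    [∀ (G : Type v) [Group G] (a b : MonoidAlgebra K G), a * b = 1 → b * a = 1,
      ∀ (G : Type v) [Group G] (n : ℕ) (A B : Matrix (Fin n) (Fin n) (MonoidAlgebra K G)),
        A * B = 1 → B * A = 1,
      ∀ a b : MonoidAlgebra K (Equiv.Perm ℕ), a * b = 1 → b * a = 1,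
      CharZero K] := by
  rw [← charZero_iff]
  exact comm_tfae K

theorem q1 : ¬ ∀ (K : Type) [Field K] (G : Type) [Group G] (a b : MonoidAlgebra K G),
    a * b = 1 → b * a = 1 := by
  intro h
  have := Fact.mk Nat.prime_three
  obtain ⟨a, b, h1, h2⟩ := perm_nat 3 Nat.prime_three
  exact h2 (h (ZMod 3) _ a b h1)

theorem q1' : ¬ ∀ (K : Type) [Field K] (G : Type) [Group G] (n : ℕ), 1 ≤ n →
    ∀ A B : Matrix (Fin n) (Fin n) (MonoidAlgebra K G), A * B = 1 → B * A = 1 :=
  fun h => q1 fun K _ G _ => df_of_stable (h K G 1 le_rfl)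

theorem simple_all : ∃ (S : Type) (_ : Group S), IsSimpleGroup S ∧ Group.FG S ∧
    ∀ (H : Type v) [Group H] (i : S →* H), Function.Injective i →
      ∀ (R : Type u) [Ring R] [Nontrivial R], ringChar R ≠ 0 → NDF R H := by
  obtain ⟨S, _, h1, h2, h⟩ := one_simple.{v}
  exact ⟨S, inferInstance, h1, h2, fun H _ i hi R _ _ hR => NDF_ringChar (h H i hi) R hR⟩

end Vale.Agent.N194Q
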